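import Vale.Agent.H88.CT.Defs
import Vale.Agent.H88.CT.Abstract

/-!
Contingency tables: the fibre relations of row pairs, row triples and blocks are equivalence
relations, and the fibre relations of disjoint row pairs (or of blocks in the same two rows with
disjoint column pairs) form commuting squares with trivial intersection.
-/

namespace Vale.Agent.H48.CT

open Finset Vale.Agent.H90 Vale.Agent.H88.CT

theorem rowRel_equiv {m n : ℕ} {r : Fin m → ℕ} {c : Fin n → ℕ} (i j : Fin m) :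
    Equivalence (RowRel (r := r) (c := c) i j) :=
  ⟨fun _ _ _ _ => rfl, fun h k hi hj => (h k hi hj).symm,
    fun h1 h2 k hi hj => (h1 k hi hj).trans (h2 k hi hj)⟩

theorem rowRel_comm {m n : ℕ} {r : Fin m → ℕ} {c : Fin n → ℕ} (i j : Fin m) (X Y : Omega r c) :
    RowRel i j X Y ↔ RowRel j i X Y :=
  ⟨fun h k hj hi => h k hi hj, fun h k hi hj => h k hj hi⟩

/-- A matrix `W` with `W + Y = X + Z` entrywise, where `X, Y, Z` are tables of the class, has the
margins of the class. -/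
theorem margins_of_add_eq {m n : ℕ} {r : Fin m → ℕ} {c : Fin n → ℕ} (X Y Z : Omega r c)
    (W : Fin m → Fin n → ℕ) (h : ∀ p q, W p q + Y.1 p q = X.1 p q + Z.1 p q) :
    (∀ p, ∑ q, W p q = r p) ∧ (∀ q, ∑ p, W p q = c q) := by
  constructor
  · intro p
    have h1 : ∑ q, W p q + ∑ q, Y.1 p q = ∑ q, X.1 p q + ∑ q, Z.1 p q := by
      rw [← Finset.sum_add_distrib, ← Finset.sum_add_distrib]
      exact Finset.sum_congr rfl (fun q _ => h p q)
    rw [X.2.1 p, Y.2.1 p, Z.2.1 p] at h1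
    omega
  · intro q
    have h1 : ∑ p, W p q + ∑ p, Y.1 p q = ∑ p, X.1 p q + ∑ p, Z.1 p q := by
      rw [← Finset.sum_add_distrib, ← Finset.sum_add_distrib]
      exact Finset.sum_congr rfl (fun p _ => h p q)
    rw [X.2.2 q, Y.2.2 q, Z.2.2 q] at h1
    omega

theorem rowRel_square {m n : ℕ} {r : Fin m → ℕ} {c : Fin n → ℕ} (i j k l : Fin m)
    (hik : i ≠ k) (hil : i ≠ l) (hjk : j ≠ k) (hjl : j ≠ l)
    (X Y Z : Omega r c) (h1 : RowRel i j X Y) (h2 : RowRel k l Y Z) :
    ∃ W : Omega r c, RowRel k l X W ∧ RowRel i j W Z := by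
  classical
  let W : Fin m → Fin n → ℕ := fun p => if p = k ∨ p = l then Z.1 p else X.1 p
  have hW : ∀ p q, W p q + Y.1 p q = X.1 p q + Z.1 p q := by
    intro p q
    by_cases hp : p = k ∨ p = l
    · have hpi : p ≠ i := by
        rcases hp with hp | hp
        · rw [hp]; exact fun h => hik h.symm
        · rw [hp]; exact fun h => hil h.symm
      have hpj : p ≠ j := by
        rcases hp with hp | hp
        · rw [hp]; exact fun h => hjk h.symm
        · rw [hp]; exact fun h => hjl h.symm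
      have hXY : X.1 p = Y.1 p := h1 p hpi hpj
      have hWp : W p = Z.1 p := if_pos hp
      rw [hWp, hXY]
      exact Nat.add_comm _ _
    · have hpk : p ≠ k := fun h => hp (Or.inl h)
      have hpl : p ≠ l := fun h => hp (Or.inr h)
      have hYZ : Y.1 p = Z.1 p := h2 p hpk hpl
      have hWp : W p = X.1 p := if_neg hp
      rw [hWp, hYZ]
  refine ⟨⟨W, margins_of_add_eq X Y Z W hW⟩, ?_, ?_⟩
  · intro p hpk hpl
    have hp : ¬ (p = k ∨ p = l) := fun h => h.elim hpk hpl
    exact (if_neg hp).symm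
  · intro p hpi hpj
    by_cases hp : p = k ∨ p = l
    · exact if_pos hp
    · have hpk : p ≠ k := fun h => hp (Or.inl h)
      have hpl : p ≠ l := fun h => hp (Or.inr h)
      have hWp : W p = X.1 p := if_neg hp
      change W p = Z.1 p
      rw [hWp, h1 p hpi hpj, h2 p hpk hpl]

theorem rowRel_inter {m n : ℕ} {r : Fin m → ℕ} {c : Fin n → ℕ} (i j k l : Fin m)
    (hik : i ≠ k) (hil : i ≠ l) (hjk : j ≠ k) (hjl : j ≠ l)
    (X Y : Omega r c) (h1 : RowRel i j X Y) (h2 : RowRel k l X Y) : X = Y := by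
  apply Subtype.ext
  funext p
  by_cases hp : p = i ∨ p = j
  · have hpk : p ≠ k := by
      rcases hp with hp | hp
      · rw [hp]; exact hik
      · rw [hp]; exact hjk
    have hpl : p ≠ l := by
      rcases hp with hp | hp
      · rw [hp]; exact hil
      · rw [hp]; exact hjl
    exact h2 p hpk hpl
  · exact h1 p (fun h => hp (Or.inl h)) (fun h => hp (Or.inr h))

theorem triRel_equiv {m n : ℕ} {r : Fin m → ℕ} {c : Fin n → ℕ} (i j k : Fin m) :
    Equivalence (TriRel (r := r) (c := c) i j k) :=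
  ⟨fun _ _ _ _ _ => rfl, fun h l hi hj hk => (h l hi hj hk).symm,
    fun h1 h2 l hi hj hk => (h1 l hi hj hk).trans (h2 l hi hj hk)⟩

theorem blockRel_equiv {m n : ℕ} {r : Fin m → ℕ} {c : Fin n → ℕ} (i j : Fin m) (a b : Fin n) :
    Equivalence (BlockRel (r := r) (c := c) i j a b) :=
  ⟨fun _ _ _ _ => rfl, fun h k l hkl => (h k l hkl).symm,
    fun h1 h2 k l hkl => (h1 k l hkl).trans (h2 k l hkl)⟩

theorem blockRel_comm {m n : ℕ} {r : Fin m → ℕ} {c : Fin n → ℕ} (i j : Fin m) (a b : Fin n)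
    (X Y : Omega r c) : BlockRel i j a b X Y ↔ BlockRel i j b a X Y :=
  ⟨fun h k l hkl => h k l (fun h' => hkl ⟨h'.1, h'.2.symm⟩),
    fun h k l hkl => h k l (fun h' => hkl ⟨h'.1, h'.2.symm⟩)⟩

theorem blockRel_square {m n : ℕ} {r : Fin m → ℕ} {c : Fin n → ℕ} (i j : Fin m) (hij : i ≠ j)
    (a b a' b' : Fin n) (h1 : a ≠ a') (h2 : a ≠ b') (h3 : b ≠ a') (h4 : b ≠ b')
    (X Y Z : Omega r c) (hXY : BlockRel i j a b X Y) (hYZ : BlockRel i j a' b' Y Z) :
    ∃ W : Omega r c, BlockRel i j a' b' X W ∧ BlockRel i j a b W Z := by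
  classical
  have _hij := hij
  let W : Fin m → Fin n → ℕ := fun p q =>
    if (p = i ∨ p = j) ∧ (q = a' ∨ q = b') then Z.1 p q else X.1 p q
  -- a cell of the primed block is outside the unprimed block
  have hout : ∀ p q, ((p = i ∨ p = j) ∧ (q = a' ∨ q = b')) →
      ¬ ((p = i ∨ p = j) ∧ (q = a ∨ q = b)) := by
    rintro p q ⟨_, hq⟩ ⟨_, hq'⟩
    rcases hq with hq | hq <;> rcases hq' with hq' | hq'
    · exact h1 (hq'.symm.trans hq)
    · exact h3 (hq'.symm.trans hq)
    · exact h2 (hq'.symm.trans hq)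
    · exact h4 (hq'.symm.trans hq)
  have hW : ∀ p q, W p q + Y.1 p q = X.1 p q + Z.1 p q := by
    intro p q
    by_cases hp : (p = i ∨ p = j) ∧ (q = a' ∨ q = b')
    · have hXYpq : X.1 p q = Y.1 p q := hXY p q (hout p q hp)
      have hWp : W p q = Z.1 p q := if_pos hp
      rw [hWp, hXYpq]
      exact Nat.add_comm _ _
    · have hYZpq : Y.1 p q = Z.1 p q := hYZ p q hp
      have hWp : W p q = X.1 p q := if_neg hp
      rw [hWp, hYZpq]
  refine ⟨⟨W, margins_of_add_eq X Y Z W hW⟩, ?_, ?_⟩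
  · intro p q hp
    exact (if_neg hp).symm
  · intro p q hpq
    by_cases hp : (p = i ∨ p = j) ∧ (q = a' ∨ q = b')
    · exact if_pos hp
    · have hWp : W p q = X.1 p q := if_neg hp
      change W p q = Z.1 p q
      rw [hWp, hXY p q hpq, hYZ p q hp]

theorem blockRel_inter {m n : ℕ} {r : Fin m → ℕ} {c : Fin n → ℕ} (i j : Fin m)
    (a b a' b' : Fin n) (h1 : a ≠ a') (h2 : a ≠ b') (h3 : b ≠ a') (h4 : b ≠ b')
    (X Y : Omega r c) (hXY : BlockRel i j a b X Y) (hXY' : BlockRel i j a' b' X Y) : X = Y := by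
  apply Subtype.ext
  funext p q
  by_cases hp : (p = i ∨ p = j) ∧ (q = a ∨ q = b)
  · refine hXY' p q ?_
    rintro ⟨_, hq'⟩
    rcases hp.2 with hq | hq <;> rcases hq' with hq' | hq'
    · exact h1 (hq.symm.trans hq')
    · exact h2 (hq.symm.trans hq')
    · exact h3 (hq.symm.trans hq')
    · exact h4 (hq.symm.trans hq')
  · exact hXY p q hp

theorem block3Rel_equiv {m n : ℕ} {r : Fin m → ℕ} {c : Fin n → ℕ} (i j : Fin m) (a b d : Fin n) :
    Equivalence (Block3Rel (r := r) (c := c) i j a b d) :=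
  ⟨fun _ _ _ _ => rfl, fun h k l hkl => (h k l hkl).symm,
    fun h1 h2 k l hkl => (h1 k l hkl).trans (h2 k l hkl)⟩

end Vale.Agent.H48.CT
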